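import Vale.Agent.P368.Final

namespace Vale.Agent.Results.P368.DepthTwoExponential

open Vale.Agent.P368

theorem result (n N : ℕ) (hnN : n ≤ N) (C : List (Layer N)) (o : Fin N) (hC : entDepth C ≤ 2) :
    |parityCorr n C o| ≤ 100 * (2 : ℝ) ^ (-(n : ℝ) / 4) :=
  depth_two_bound n N hnN C o hC

end Vale.Agent.Results.P368.DepthTwoExponential
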