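import Vale.Agent.Results.P368.DepthTwoExponential
import Vale.Agent.P368.Unit

namespace Vale.Agent.Results.P368.E_WorstCaseAdvantage

open Vale.Agent.P368

theorem result (n N : ℕ) (hnN : n ≤ N) (C : List (Layer N)) (o : Fin N) (hC : entDepth C ≤ 2)
    (ε : ℝ) (hε : ∀ x : Fin n → Bool, 1 / 2 + ε ≤ outProb C o x (par x)) :
    ε ≤ 50 * (2 : ℝ) ^ (-(n : ℝ) / 4) := by
  have h1 := Vale.Agent.Results.P368.DepthTwoExponential.result n N hnN C o hC
  have h2 : 2 * ε ≤ parityCorr n C o := by
    unfold parityCorr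
    rw [le_div_iff₀ (by positivity)]
    have h3 : ∀ x : Fin n → Bool,
        2 * ε ≤ outProb C o x (par x) - outProb C o x (!(par x)) := by
      intro x
      have := outProb_add C o x (par x)
      have := hε x
      linarith
    calc 2 * ε * 2 ^ n = ∑ _x : Fin n → Bool, 2 * ε := by
          simp [mul_comm]
      _ ≤ _ := Finset.sum_le_sum fun x _ => h3 x
  have h4 := (le_abs_self _).trans h1
  linarith

end Vale.Agent.Results.P368.E_WorstCaseAdvantage
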