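import Vale.Agent.Results.P368.E_WorstCaseAdvantage

namespace Vale.Agent.Results.P368.F_HardInput

open Vale.Agent.P368

/-- Every circuit of entangling depth at most two, on any number of qubits, has an input on which
its answer equals the parity with probability at most `1/2 + 50 * 2 ^ (-n/4)`. -/
theorem result (n N : ℕ) (hnN : n ≤ N) (C : List (Layer N)) (o : Fin N) (hC : entDepth C ≤ 2) :
    ∃ x : Fin n → Bool, outProb C o x (par x) ≤ 1 / 2 + 50 * (2 : ℝ) ^ (-(n : ℝ) / 4) := by
  obtain ⟨x₀, -, hx₀⟩ := Finset.exists_min_image (Finset.univ : Finset (Fin n → Bool))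
    (fun x => outProb C o x (par x)) ⟨fun _ => false, Finset.mem_univ _⟩
  refine ⟨x₀, ?_⟩
  have h1 := Vale.Agent.Results.P368.E_WorstCaseAdvantage.result n N hnN C o hC
    (outProb C o x₀ (par x₀) - 1 / 2) (fun x => by
      have := hx₀ x (Finset.mem_univ _)
      linarith)
  linarith

end Vale.Agent.Results.P368.F_HardInput
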