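import Vale.Agent.Results.P368.DepthTwoExponential

namespace Vale.Agent.Results.P368.G_ExponentialDecay

open Vale.Agent.P368

/-- The parity correlation at entangling depth at most two decays exponentially in `n`, uniformly
in the number of qubits: it is at most `A * exp (- c * n)` for absolute constants `c > 0`, `A`. -/
theorem result :
    ∃ c A : ℝ, 0 < c ∧ 0 < A ∧ ∀ (n N : ℕ), n ≤ N → ∀ (C : List (Layer N)) (o : Fin N),
      entDepth C ≤ 2 → |parityCorr n C o| ≤ A * Real.exp (-c * n) := by
  refine ⟨Real.log 2 / 4, 100, by positivity, by norm_num, fun n N hnN C o hC => ?_⟩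
  have h1 := Vale.Agent.Results.P368.DepthTwoExponential.result n N hnN C o hC
  have h2 : (2 : ℝ) ^ (-(n : ℝ) / 4) = Real.exp (-(Real.log 2 / 4) * n) := by
    rw [Real.rpow_def_of_pos (by norm_num)]
    congr 1
    ring
  rw [h2] at h1
  exact h1

end Vale.Agent.Results.P368.G_ExponentialDecay
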